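import Vale.Agent.P297.H80.Z2.Tg

/-!
The points of the surface on a generic line through a node of `T_l` depend on two parameters.
-/

set_option linter.unusedSectionVars false
set_option linter.unusedVariables false
set_option linter.style.haveILetI false

open Polynomial

namespace Vale.Agent.P297.H80.Z2

open Vale.Agent.P297 Vale.Agent.P297.Gen Vale.Agent.P297.H160.Z2Irr Vale.Agent.P297.Z2

section alg

/-- The end of the argument over `l = 0`: the three discriminants and the norm. -/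
theorem end_alg {N : Type} [Field N] [Algebra ℂ N] [CharZero N] {P : Par} (hM : P.M1 = 0)
    (h0 : P.P0 ≠ 0) (h2 : P.P2 ≠ 0)
    (hQ0 : P.Q0 ≠ 0) (hQ1 : P.Q1 ≠ 0) (hQ : P.Q0 ≠ P.Q1) {x w y a b : N}
    (e1 : tg P 0 x w y 0 1 = 0) (e2 : tg P 0 x w y (-1) 0 = 0)
    (ha : a * (algebraMap ℂ N P.Q0 - algebraMap ℂ N P.Q1) = algebraMap ℂ N P.Q1)
    (hb : b * (algebraMap ℂ N P.Q0 - algebraMap ℂ N P.Q1) = algebraMap ℂ N P.Q0)
    (e3 : tg P 0 x w y a b = 0) (e4 : Nm P 0 x w y = 0) (hh : (dat P y).h 0 ≠ 0) :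
    x = algebraMap ℂ N P.Q1 / 4 ∧ w = algebraMap ℂ N P.Q0 / 4 ∧
      (x + w + y) ^ 2 = 4 * nn P x w - algebraMap ℂ N P.Q0 * x - algebraMap ℂ N P.Q1 * w +
        algebraMap ℂ N P.m := by
  have hinj := (algebraMap ℂ N).injective
  have nz : ∀ {z : ℂ}, z ≠ 0 → algebraMap ℂ N z ≠ 0 := fun {z} hz => by
    rwa [Ne, map_eq_zero_iff _ hinj]
  have hQ' : algebraMap ℂ N P.Q0 - algebraMap ℂ N P.Q1 ≠ 0 := by
    rw [← map_sub]
    exact nz (sub_ne_zero.2 hQ)
  rw [tg_zero hM (by ring)] at e1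
  rw [tg_zero hM (by ring)] at e2
  have hab : a = b - 1 := by
    apply mul_right_cancel₀ hQ'
    rw [sub_mul, ha, hb]
    ring
  rw [tg_zero hM hab] at e3
  have hQa : algebraMap ℂ N P.Q0 * a - algebraMap ℂ N P.Q1 * b = 0 := by
    apply mul_right_cancel₀ hQ'
    linear_combination algebraMap ℂ N P.Q0 * ha - algebraMap ℂ N P.Q1 * hb
  have hA := nz h0
  have hB := nz h2
  have hc0 := nz hQ0
  have hc1 := nz hQ1
  have hjdef : jj P x w y = (x + w + y) ^ 2 + algebraMap ℂ N P.Q0 * x +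
    algebraMap ℂ N P.Q1 * w - algebraMap ℂ N P.m := rfl
  have hndef : nn P x w = x * w - algebraMap ℂ N P.P0 * algebraMap ℂ N P.P2 := rfl
  have hj : ∀ j, j = jj P x w y → ∀ n, n = nn P x w → x * j = algebraMap ℂ N P.Q1 * n ∧
      w * j = algebraMap ℂ N P.Q0 * n := by
    intro j hj n hn
    rw [← hj, ← hn] at e1 e2
    constructor
    · have h5 : (x * j - algebraMap ℂ N P.Q1 * n) ^ 2 = 0 := by linear_combination e1 / 16
      exact sub_eq_zero.1 (pow_eq_zero_iff (two_ne_zero)|>.1 h5)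
    · have h5 : (w * j - algebraMap ℂ N P.Q0 * n) ^ 2 = 0 := by linear_combination e2 / 16
      exact sub_eq_zero.1 (pow_eq_zero_iff (two_ne_zero)|>.1 h5)
  obtain ⟨h5, h6⟩ := hj _ rfl _ rfl
  by_cases hn : nn P x w = 0
  · exfalso
    rw [hn, mul_zero] at h5
    have hxw : x * w = algebraMap ℂ N P.P0 * algebraMap ℂ N P.P2 := by
      rw [hndef] at hn
      exact sub_eq_zero.1 hn
    have hx : x ≠ 0 := by
      rintro rfl
      rw [zero_mul] at hxw
      exact mul_ne_zero hA hB hxw.symm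
    have hj0 : jj P x w y = 0 := (mul_eq_zero.1 h5).resolve_left hx
    have hB0 : tB P 0 x w y = 0 := by rw [tB_zero hM, hj0, zero_mul]
    unfold Nm at e4
    rw [hB0, mul_zero, sub_zero] at e4
    have hPhi : tPhi P 0 x w y 0 = 0 := pow_eq_zero_iff (two_ne_zero) |>.1 e4
    have hN : (dat P y).N x w = 0 := hn
    have hJ : (dat P y).J0 x w = 0 := by
      rw [← hj0]
      unfold Dat.J0 jj dat fa fc fm
      rw [hM, map_zero]
      ring
    have hK : (dat P y).K 0 x w = 0 := by
      unfold Dat.K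
      rw [hN, hJ]
      ring
    have h7 : 2 * (dat P y).h 0 * (dat P y).E x * (dat P y).F w = 0 := by
      have h7' := hPhi
      unfold tPhi Dat.Phi at h7'
      rw [hN, hK] at h7'
      linear_combination h7'
    have h8 : (dat P y).E x = 0 ∨ (dat P y).F w = 0 := by
      rcases mul_eq_zero.1 h7 with h | h
      · rcases mul_eq_zero.1 h with h | h
        · rcases mul_eq_zero.1 h with h | h
          · exact absurd h two_ne_zero
          · exact absurd h hh
        · exact Or.inl h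
      · exact Or.inr h
    have hw : w ≠ 0 := by
      rintro rfl
      rw [mul_zero] at hxw
      exact mul_ne_zero hA hB hxw.symm
    have h9 : x * (dat P y).F w = algebraMap ℂ N P.P0 * (dat P y).E x := by
      have : (dat P y).N x w = x * w - algebraMap ℂ N P.P0 * algebraMap ℂ N P.P2 := rfl
      unfold Dat.F Dat.E dat
      linear_combination (fU P y) * hxw
    have hE : (dat P y).E x = 0 := by
      rcases h8 with h | h
      · exact h
      · rw [h, mul_zero] at h9
        exact (mul_eq_zero.1 h9.symm).resolve_left hA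
    have hF : (dat P y).F w = 0 := by
      rw [hE, mul_zero] at h9
      exact (mul_eq_zero.1 h9).resolve_left hx
    apply hh
    have hE' : (dat P y).V * x = -((dat P y).B * (dat P y).U) := by
      unfold Dat.E at hE
      linear_combination hE
    have hF' : (dat P y).U * w = -((dat P y).A * (dat P y).V) := by
      unfold Dat.F at hF
      linear_combination hF
    have hJ' := hJ
    unfold Dat.J0 at hJ'
    unfold Dat.h
    have h10 : (dat P y).U ^ 2 * (dat P y).V ^ 2 * ((x + w) ^ 2 + (dat P y).a * x +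
        (dat P y).c * w - (dat P y).m) = 0 := by rw [hJ', mul_zero]
    generalize (dat P y).U = U at *
    generalize (dat P y).V = V at *
    generalize (dat P y).A = A at *
    generalize (dat P y).B = B at *
    generalize (dat P y).a = a' at *
    generalize (dat P y).c = c' at *
    generalize (dat P y).m = m' at *
    generalize (dat P y).g = g' at *
    have h11 : U * V * x + U * V * w = -(B * U ^ 2 + A * V ^ 2) := by
      linear_combination U * hE' + V * hF'
    linear_combination h10 - (U * V * x + U * V * w - (B * U ^ 2 + A * V ^ 2)) * h11 -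
      a' * U ^ 2 * V * hE' - c' * U * V ^ 2 * hF'
  · have hj0 : jj P x w y ≠ 0 := by
      intro h
      rw [h, mul_zero] at h5
      exact hn ((mul_eq_zero.1 h5.symm).resolve_left hc1)
    have h7 : algebraMap ℂ N P.Q0 * x = algebraMap ℂ N P.Q1 * w := by
      apply mul_right_cancel₀ hj0
      linear_combination algebraMap ℂ N P.Q0 * h5 - algebraMap ℂ N P.Q1 * h6
    have h8 : a * w - b * x = 0 := by
      apply mul_right_cancel₀ hQ'
      linear_combination w * ha - x * hb - h7
    have hA' : a ≠ 0 := by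
      rintro rfl
      rw [zero_mul] at ha
      exact hc1 ha.symm
    have hB' : b ≠ 0 := by
      rintro rfl
      rw [zero_mul] at hb
      exact hc0 hb.symm
    have h9 : jj P x w y = 4 * nn P x w := by
      rw [hQa, h8] at e3
      have h10 : (jj P x w y * jj P x w y) * (a * b) * (jj P x w y - 4 * nn P x w) = 0 := by
        linear_combination -e3 / 16
      have h11 := (mul_eq_zero.1 h10).resolve_left
        (mul_ne_zero (mul_ne_zero hj0 hj0) (mul_ne_zero hA' hB'))
      exact sub_eq_zero.1 h11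
    refine ⟨?_, ?_, ?_⟩
    · apply mul_right_cancel₀ hn
      linear_combination (h5 - x * h9) / 4
    · apply mul_right_cancel₀ hn
      linear_combination (h6 - w * h9) / 4
    · rw [hjdef] at h9
      linear_combination h9

end alg

section main

variable {N : Type} [Field N] [Algebra ℂ N] {P : Par}

theorem spec_tg {F : IntermediateField ℂ N} (hF : ∀ u : N, IsAlgebraic F u → u ∈ F)
    (A : Fin 3 → F[X]) (D : F[X]) {t : N} (ht : t ∉ F) (hD : aeval t D ≠ 0) (x w y ξ η : F)
    {l al be : N} (e0 : al = aeval t (A 0) / aeval t D) (e1 : be = aeval t (A 1) / aeval t D)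
    (e2 : l = aeval t (A 2) / aeval t D)
    (h : tg P l (x + l * ξ) (w + l * η) y al be = 0) (c : F) (hc : aeval c D ≠ 0) :
    tg P (aeval c (A 2) / aeval c D) (x + aeval c (A 2) / aeval c D * ξ)
      (w + aeval c (A 2) / aeval c D * η) y (aeval c (A 0) / aeval c D)
      (aeval c (A 1) / aeval c D) = 0 := by
  set R : MvPolynomial (Fin 3) F := tg P (MvPolynomial.X 2)
    (MvPolynomial.C x + MvPolynomial.X 2 * MvPolynomial.C ξ)
    (MvPolynomial.C w + MvPolynomial.X 2 * MvPolynomial.C η) (MvPolynomial.C y)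
    (MvPolynomial.X 0) (MvPolynomial.X 1) with hR
  have h1 : ∀ (E : Type) [Field E] [Algebra F E] [Algebra ℂ E] [IsScalarTower ℂ F E]
      (v : Fin 3 → E), MvPolynomial.aeval v R = tg P (v 2)
        (algebraMap F E x + v 2 * algebraMap F E ξ) (algebraMap F E w + v 2 * algebraMap F E η)
        (algebraMap F E y) (v 0) (v 1) := by
    intro E _ _ _ _ v
    have h2 := map_tg P ((MvPolynomial.aeval v : MvPolynomial (Fin 3) F →ₐ[F] E).restrictScalars ℂ)
      (MvPolynomial.X 2) (MvPolynomial.C x + MvPolynomial.X 2 * MvPolynomial.C ξ)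
      (MvPolynomial.C w + MvPolynomial.X 2 * MvPolynomial.C η) (MvPolynomial.C y)
      (MvPolynomial.X 0) (MvPolynomial.X 1)
    rw [hR]
    simpa only [AlgHom.restrictScalars_apply, map_add, map_mul, MvPolynomial.aeval_X,
      MvPolynomial.aeval_C] using h2
  have h2 := spec_param hF A D R ht hD (by
    rw [h1 N]
    rw [← e0, ← e1, ← e2]
    exact h) c hc
  rw [h1 F] at h2
  exact h2

theorem spec_Nm {F : IntermediateField ℂ N} (hF : ∀ u : N, IsAlgebraic F u → u ∈ F)
    (A : Fin 3 → F[X]) (D : F[X]) {t : N} (ht : t ∉ F) (hD : aeval t D ≠ 0) (x w y ξ η : F)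
    {l : N} (e2 : l = aeval t (A 2) / aeval t D)
    (h : Nm P l (x + l * ξ) (w + l * η) (y : N) = 0) (c : F) (hc : aeval c D ≠ 0) :
    Nm P (aeval c (A 2) / aeval c D) (x + aeval c (A 2) / aeval c D * ξ)
      (w + aeval c (A 2) / aeval c D * η) y = 0 := by
  set R : MvPolynomial (Fin 3) F := Nm P (MvPolynomial.X 2)
    (MvPolynomial.C x + MvPolynomial.X 2 * MvPolynomial.C ξ)
    (MvPolynomial.C w + MvPolynomial.X 2 * MvPolynomial.C η) (MvPolynomial.C y) with hR
  have h1 : ∀ (E : Type) [Field E] [Algebra F E] [Algebra ℂ E] [IsScalarTower ℂ F E]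
      (v : Fin 3 → E), MvPolynomial.aeval v R = Nm P (v 2)
        (algebraMap F E x + v 2 * algebraMap F E ξ) (algebraMap F E w + v 2 * algebraMap F E η)
        (algebraMap F E y) := by
    intro E _ _ _ _ v
    have h2 := map_Nm P ((MvPolynomial.aeval v : MvPolynomial (Fin 3) F →ₐ[F] E).restrictScalars ℂ)
      (MvPolynomial.X 2) (MvPolynomial.C x + MvPolynomial.X 2 * MvPolynomial.C ξ)
      (MvPolynomial.C w + MvPolynomial.X 2 * MvPolynomial.C η) (MvPolynomial.C y)
    rw [hR]
    simpa only [AlgHom.restrictScalars_apply, map_add, map_mul, MvPolynomial.aeval_X,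
      MvPolynomial.aeval_C] using h2
  have h2 := spec_param hF A D R ht hD (by
    rw [h1 N]
    rw [← e2]
    exact h) c hc
  rw [h1 F] at h2
  exact h2

/-- The three nodes over `l = 0`. -/
theorem spec_three [CharZero N] (h0 : P.P0 ≠ 0) (h2 : P.P2 ≠ 0)
    (hQ0 : P.Q0 ≠ 0) (hQ1 : P.Q1 ≠ 0) (hQ : P.Q0 ≠ P.Q1)
    (hq : P.P0 * P.Q1 ^ 2 - P.P1 * P.Q0 * P.Q1 + P.P2 * P.Q0 ^ 2 ≠ 0)
    {F : IntermediateField ℂ N} (hF : ∀ u : N, IsAlgebraic F u → u ∈ F)
    {l al be : N} (hd : be - al = 1 - l)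
    (hn : al * be * (algebraMap ℂ N P.Q0 * al - algebraMap ℂ N P.Q1 * be) =
      l * (algebraMap ℂ N P.P0 * al ^ 2 - algebraMap ℂ N P.P1 * al * be +
        algebraMap ℂ N P.P2 * be ^ 2))
    (hl : l ∉ F) {x w y ξ η : N} (hx : x ∈ F) (hw : w ∈ F) (hy : y ∈ F) (hξ : ξ ∈ F)
    (hη : η ∈ F) (ht : tg P l (x + l * ξ) (w + l * η) y al be = 0)
    (hNm : Nm P l (x + l * ξ) (w + l * η) y = 0) :
    tg P 0 x w y 0 1 = 0 ∧ tg P 0 x w y (-1) 0 = 0 ∧ Nm P 0 x w y = 0 ∧
    ∀ a b : N, a * (algebraMap ℂ N P.Q0 - algebraMap ℂ N P.Q1) = algebraMap ℂ N P.Q1 →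
      b * (algebraMap ℂ N P.Q0 - algebraMap ℂ N P.Q1) = algebraMap ℂ N P.Q0 →
      tg P 0 x w y a b = 0 := by
  have nz : ∀ {z : ℂ}, z ≠ 0 → algebraMap ℂ N z ≠ 0 := fun {z} hz => by
    rwa [Ne, map_eq_zero_iff _ (algebraMap ℂ N).injective]
  have nzF : ∀ {z : ℂ}, z ≠ 0 → algebraMap ℂ F z ≠ 0 := fun {z} hz => by
    rwa [Ne, map_eq_zero_iff _ (algebraMap ℂ F).injective]
  set P0 := algebraMap ℂ N P.P0 with hP0
  set P1 := algebraMap ℂ N P.P1 with hP1
  set P2 := algebraMap ℂ N P.P2 with hP2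
  set Q0 := algebraMap ℂ N P.Q0 with hQ0'
  set Q1 := algebraMap ℂ N P.Q1 with hQ1'
  have mF : ∀ z : ℂ, algebraMap ℂ N z ∈ F := fun z => F.algebraMap_mem z
  have hl0 : l ≠ 0 := fun h => hl (by rw [h]; exact zero_mem _)
  have hbe : be ≠ 0 := by
    rintro rfl
    have h3 : l * (P0 * al ^ 2) = 0 := by linear_combination -hn
    have h4 : al = 0 := by
      have h5 := (mul_eq_zero.1 h3).resolve_left hl0
      exact pow_eq_zero_iff two_ne_zero |>.1 ((mul_eq_zero.1 h5).resolve_left (nz h0))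
    apply hl
    have h5 : l = 1 := by rw [h4] at hd; linear_combination hd
    rw [h5]
    exact one_mem _
  obtain ⟨t, rfl⟩ : ∃ t, al = t * be := ⟨al / be, (div_mul_cancel₀ _ hbe).symm⟩
  have k1 : be * (t * (Q0 * t - Q1)) = l * (P0 * t ^ 2 - P1 * t + P2) := by
    apply mul_right_cancel₀ (pow_ne_zero 2 hbe)
    linear_combination hn
  have k2 : be * ((1 - t) * (P0 * t ^ 2 - P1 * t + P2) + t * (Q0 * t - Q1)) =
      P0 * t ^ 2 - P1 * t + P2 := by
    linear_combination k1 + (P0 * t ^ 2 - P1 * t + P2) * hd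
  have hD : (1 - t) * (P0 * t ^ 2 - P1 * t + P2) + t * (Q0 * t - Q1) ≠ 0 := by
    intro h
    rw [h, mul_zero] at k2
    rw [← k2, mul_zero] at k1
    have k3 := (mul_eq_zero.1 k1).resolve_left hbe
    rcases mul_eq_zero.1 k3 with k4 | k4
    · rw [k4] at k2
      apply nz h2
      rw [← hP2]
      linear_combination -k2
    · apply nz hq
      rw [map_add, map_sub, map_mul, map_mul, map_mul, map_mul, map_pow, map_pow, ← hP0, ← hP1,
        ← hP2, ← hQ0', ← hQ1']
      have k5 : Q1 = Q0 * t := by linear_combination -k4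
      rw [k5]
      linear_combination (-Q0 ^ 2) * k2
  have k3 : l * ((1 - t) * (P0 * t ^ 2 - P1 * t + P2) + t * (Q0 * t - Q1)) =
      t * (Q0 * t - Q1) := by
    apply mul_left_cancel₀ hbe
    linear_combination l * k2 - k1
  have htF : t ∉ F := by
    intro h
    apply hl
    have h3 : l = t * (Q0 * t - Q1) /
        ((1 - t) * (P0 * t ^ 2 - P1 * t + P2) + t * (Q0 * t - Q1)) := by
      rw [eq_div_iff hD, k3]
    rw [h3]
    have h4 : P0 * t ^ 2 - P1 * t + P2 ∈ F :=
      add_mem (sub_mem (mul_mem (mF _) (pow_mem h 2)) (mul_mem (mF _) h)) (mF _)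
    have h5 : t * (Q0 * t - Q1) ∈ F := mul_mem h (sub_mem (mul_mem (mF _) h) (mF _))
    exact div_mem h5 (add_mem (mul_mem (sub_mem (one_mem _) h) h4) h5)
  have ht0 : t ≠ 0 := fun h => htF (by rw [h]; exact zero_mem _)
  set x' : F := ⟨x, hx⟩ with hx'
  set w' : F := ⟨w, hw⟩ with hw'
  set y' : F := ⟨y, hy⟩ with hy'
  set ξ' : F := ⟨ξ, hξ⟩ with hξ'
  set η' : F := ⟨η, hη⟩ with hη'
  have hsc : ∀ z : ℂ, algebraMap F N (algebraMap ℂ F z) = algebraMap ℂ N z := fun z => rfl
  -- the polynomials in t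
  let cc : ℂ → F[X] := fun z => C (algebraMap ℂ F z)
  let qp : F[X] := cc P.P0 * X ^ 2 - cc P.P1 * X + cc P.P2
  let gp : F[X] := X * (cc P.Q0 * X - cc P.Q1)
  let Dp : F[X] := (1 - X) * qp + gp
  let A : Fin 3 → F[X] := ![X * qp, qp, gp]
  have aq : ∀ s : N, aeval s qp = P0 * s ^ 2 - P1 * s + P2 := by
    intro s
    simp only [qp, cc, map_add, map_sub, map_mul, map_pow, aeval_C, aeval_X, hsc]
    rfl
  have ag : ∀ s : N, aeval s gp = s * (Q0 * s - Q1) := by
    intro s
    simp only [gp, cc, map_sub, map_mul, aeval_C, aeval_X, hsc]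
    rfl
  have aD : ∀ s : N, aeval s Dp = (1 - s) * (P0 * s ^ 2 - P1 * s + P2) + s * (Q0 * s - Q1) := by
    intro s
    simp only [Dp, map_add, map_sub, map_mul, map_one, aeval_X, aq, ag]
  have hD1 : aeval t Dp ≠ 0 := by rw [aD]; exact hD
  have ee0 : t * be = aeval t (A 0) / aeval t Dp := by
    rw [eq_div_iff hD1, aD]
    change _ = aeval t (X * qp)
    rw [map_mul, aeval_X, aq]
    linear_combination t * k2
  have ee1 : be = aeval t (A 1) / aeval t Dp := by
    rw [eq_div_iff hD1, aD]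
    change _ = aeval t qp
    rw [aq]
    linear_combination k2
  have ee2 : l = aeval t (A 2) / aeval t Dp := by
    rw [eq_div_iff hD1, aD]
    change _ = aeval t gp
    rw [ag]
    linear_combination k3
  have vF : ∀ (Q : F[X]) (c : F), ((aeval c Q : F) : N) = aeval (c : N) Q := by
    intro Q c
    have := Polynomial.aeval_algebraMap_apply N c Q
    exact this.symm
  have vinj : Function.Injective (F.val) := F.val.injective
  have key := spec_tg (P := P) hF A Dp htF hD1 x' w' y' ξ' η' ee0 ee1 ee2 ht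
  have keyN := spec_Nm (P := P) hF A Dp htF hD1 x' w' y' ξ' η' ee2 hNm
  -- the polynomials in 1 / t
  have hsF : t⁻¹ ∉ F := fun h => htF (by
    have := inv_mem h
    rwa [inv_inv] at this)
  let qs : F[X] := cc P.P0 - cc P.P1 * X + cc P.P2 * X ^ 2
  let Ds : F[X] := (X - 1) * qs + X * (cc P.Q0 - cc P.Q1 * X)
  let B : Fin 3 → F[X] := ![qs, X * qs, X * (cc P.Q0 - cc P.Q1 * X)]
  have bq : ∀ s : N, aeval s qs = P0 - P1 * s + P2 * s ^ 2 := by
    intro s
    simp only [qs, cc, map_add, map_sub, map_mul, map_pow, aeval_C, aeval_X, hsc]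
    rfl
  have bg : ∀ s : N, aeval s (X * (cc P.Q0 - cc P.Q1 * X)) = s * (Q0 - Q1 * s) := by
    intro s
    simp only [cc, map_sub, map_mul, aeval_C, aeval_X, hsc]
    rfl
  have bD : ∀ s : N, aeval s Ds = (s - 1) * (P0 - P1 * s + P2 * s ^ 2) + s * (Q0 - Q1 * s) := by
    intro s
    simp only [Ds, map_add, map_sub, map_mul, map_one, aeval_X, bq, aeval_C, cc, hsc]
    rfl
  have hst : t⁻¹ * t = 1 := inv_mul_cancel₀ ht0
  have hDs : aeval t⁻¹ Ds * t ^ 3 =
      (1 - t) * (P0 * t ^ 2 - P1 * t + P2) + t * (Q0 * t - Q1) := by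
    rw [bD]
    field_simp
  have hD2 : aeval t⁻¹ Ds ≠ 0 := by
    intro h
    rw [h, zero_mul] at hDs
    exact hD hDs.symm
  have ff0 : t * be = aeval t⁻¹ (B 0) / aeval t⁻¹ Ds := by
    rw [eq_div_iff hD2]
    change _ = aeval t⁻¹ qs
    apply mul_right_cancel₀ (pow_ne_zero 3 ht0)
    rw [mul_assoc, hDs, bq]
    have : (P0 - P1 * t⁻¹ + P2 * t⁻¹ ^ 2) * t ^ 3 = t * (P0 * t ^ 2 - P1 * t + P2) := by
      field_simp
    rw [this]
    linear_combination t * k2
  have ff1 : be = aeval t⁻¹ (B 1) / aeval t⁻¹ Ds := by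
    rw [eq_div_iff hD2]
    change _ = aeval t⁻¹ (X * qs)
    apply mul_right_cancel₀ (pow_ne_zero 3 ht0)
    rw [mul_assoc, hDs, map_mul, aeval_X, bq]
    have : (t⁻¹ * (P0 - P1 * t⁻¹ + P2 * t⁻¹ ^ 2)) * t ^ 3 = P0 * t ^ 2 - P1 * t + P2 := by
      field_simp
    rw [this]
    linear_combination k2
  have ff2 : l = aeval t⁻¹ (B 2) / aeval t⁻¹ Ds := by
    rw [eq_div_iff hD2]
    change _ = aeval t⁻¹ (X * (cc P.Q0 - cc P.Q1 * X))
    apply mul_right_cancel₀ (pow_ne_zero 3 ht0)
    rw [mul_assoc, hDs, bg]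
    have : (t⁻¹ * (Q0 - Q1 * t⁻¹)) * t ^ 3 = t * (Q0 * t - Q1) := by
      field_simp
    rw [this]
    linear_combination k3
  have keyS := spec_tg (P := P) hF B Ds hsF hD2 x' w' y' ξ' η' ff0 ff1 ff2 ht
  -- transport to N
  have tr : ∀ (c : F) (A' : Fin 3 → F[X]) (D' : F[X]) (a b : N), aeval (c : N) D' ≠ 0 →
      aeval (c : N) (A' 2) = 0 → a * aeval (c : N) D' = aeval (c : N) (A' 0) →
      b * aeval (c : N) D' = aeval (c : N) (A' 1) →
      tg P (aeval c (A' 2) / aeval c D') (x' + aeval c (A' 2) / aeval c D' * ξ')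
        (w' + aeval c (A' 2) / aeval c D' * η') y' (aeval c (A' 0) / aeval c D')
        (aeval c (A' 1) / aeval c D') = 0 → tg P 0 x w y a b = 0 := by
    intro c A' D' a b hc h3 h4 h5 h6
    have h7 := congrArg F.val h6
    rw [map_tg, map_zero] at h7
    simp only [map_add, map_mul, map_div₀] at h7
    have e : ∀ Q : F[X], F.val (aeval c Q) = aeval (c : N) Q := fun Q => vF Q c
    have ex : F.val x' = x := rfl
    have ew : F.val w' = w := rfl
    have ey : F.val y' = y := rfl
    rw [e, e, e, e, h3, zero_div, zero_mul, zero_mul, add_zero, add_zero, ← h4, ← h5,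
      mul_div_cancel_right₀ _ hc, mul_div_cancel_right₀ _ hc, ex, ew, ey] at h7
    exact h7
  have cF : ∀ c : F, ∀ D' : F[X], aeval (c : N) D' ≠ 0 → aeval c D' ≠ 0 := by
    intro c D' h h'
    apply h
    rw [← vF, h']
    rfl
  refine ⟨?_, ?_, ?_, ?_⟩
  · have hc : aeval ((0 : F) : N) Dp ≠ 0 := by
      rw [aD]
      have e : ((0 : F) : N) = 0 := rfl
      rw [e]
      have : (1 - (0 : N)) * (P0 * 0 ^ 2 - P1 * 0 + P2) + 0 * (Q0 * 0 - Q1) = P2 := by ring
      rw [this]
      exact nz h2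
    refine tr 0 A Dp 0 1 hc ?_ ?_ ?_ (key 0 (cF 0 _ hc))
    · change aeval ((0 : F) : N) gp = 0
      rw [ag]
      have e : ((0 : F) : N) = 0 := rfl
      rw [e]
      ring
    · change _ = aeval ((0 : F) : N) (X * qp)
      have e : ((0 : F) : N) = 0 := rfl
      rw [map_mul, aeval_X, e]
      ring
    · change _ = aeval ((0 : F) : N) qp
      have e : ((0 : F) : N) = 0 := rfl
      rw [aD, aq, e]
      ring
  · have hc : aeval ((0 : F) : N) Ds ≠ 0 := by
      rw [bD]
      have e : ((0 : F) : N) = 0 := rfl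
      rw [e]
      have : ((0 : N) - 1) * (P0 - P1 * 0 + P2 * 0 ^ 2) + 0 * (Q0 - Q1 * 0) = -P0 := by ring
      rw [this]
      exact neg_ne_zero.2 (nz h0)
    refine tr 0 B Ds (-1) 0 hc ?_ ?_ ?_ (keyS 0 (cF 0 _ hc))
    · change aeval ((0 : F) : N) (X * (cc P.Q0 - cc P.Q1 * X)) = 0
      rw [bg]
      have e : ((0 : F) : N) = 0 := rfl
      rw [e]
      ring
    · change _ = aeval ((0 : F) : N) qs
      have e : ((0 : F) : N) = 0 := rfl
      rw [bD, bq, e]
      ring
    · change _ = aeval ((0 : F) : N) (X * qs)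
      have e : ((0 : F) : N) = 0 := rfl
      rw [map_mul, aeval_X, e]
      ring
  · have hc : aeval ((0 : F) : N) Dp ≠ 0 := by
      rw [aD]
      have e : ((0 : F) : N) = 0 := rfl
      rw [e]
      have : (1 - (0 : N)) * (P0 * 0 ^ 2 - P1 * 0 + P2) + 0 * (Q0 * 0 - Q1) = P2 := by ring
      rw [this]
      exact nz h2
    have h6 := keyN 0 (cF 0 _ hc)
    have h7 := congrArg F.val h6
    rw [map_Nm, map_zero] at h7
    simp only [map_add, map_mul, map_div₀] at h7
    have e : ∀ Q : F[X], F.val (aeval (0 : F) Q) = aeval ((0 : F) : N) Q := fun Q => vF Q 0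
    have ex : F.val x' = x := rfl
    have ew : F.val w' = w := rfl
    have ey : F.val y' = y := rfl
    have h3 : aeval ((0 : F) : N) (A 2) = 0 := by
      change aeval ((0 : F) : N) gp = 0
      rw [ag]
      have e : ((0 : F) : N) = 0 := rfl
      rw [e]
      ring
    rw [e, e, h3, zero_div, zero_mul, zero_mul, add_zero, add_zero, ex, ew, ey] at h7
    exact h7
  · intro a b ha hb
    set c : F := algebraMap ℂ F (P.Q1 / P.Q0) with hcdef
    have ec : (c : N) * Q0 = Q1 := by
      change algebraMap ℂ N (P.Q1 / P.Q0) * Q0 = Q1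
      rw [hQ0', ← map_mul, div_mul_cancel₀ _ hQ0]
    have hQN : Q0 - Q1 ≠ 0 := by
      rw [hQ0', hQ1', ← map_sub]
      exact nz (sub_ne_zero.2 hQ)
    have hg0 : (c : N) * (Q0 * c - Q1) = 0 := by
      linear_combination (c : N) * ec
    have hq0 : P0 * (c : N) ^ 2 - P1 * c + P2 ≠ 0 := by
      intro h
      apply nz hq
      rw [map_add, map_sub, map_mul, map_mul, map_mul, map_mul, map_pow, map_pow, ← hP0, ← hP1,
        ← hP2, ← hQ0', ← hQ1', ← ec]
      linear_combination Q0 ^ 2 * h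
    have h1c : 1 - (c : N) ≠ 0 := by
      intro h
      apply hQN
      rw [← ec]
      linear_combination Q0 * h
    have hc : aeval (c : N) Dp ≠ 0 := by
      rw [aD, hg0, add_zero]
      exact mul_ne_zero h1c hq0
    have a1 : a * (1 - (c : N)) = c := by
      apply mul_right_cancel₀ (nz hQ0)
      rw [← hQ0']
      linear_combination ha + (-a - 1) * ec
    have b1 : b * (1 - (c : N)) = 1 := by
      apply mul_right_cancel₀ (nz hQ0)
      rw [← hQ0']
      linear_combination hb - b * ec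
    refine tr c A Dp a b hc ?_ ?_ ?_ (key c (cF c _ hc))
    · change aeval (c : N) gp = 0
      rw [ag, hg0]
    · change _ = aeval (c : N) (X * qp)
      rw [map_mul, aeval_X, aD, aq, hg0, add_zero]
      linear_combination (P0 * (c : N) ^ 2 - P1 * c + P2) * a1
    · change _ = aeval (c : N) qp
      rw [aD, aq, hg0, add_zero]
      linear_combination (P0 * (c : N) ^ 2 - P1 * c + P2) * b1

end main

end Vale.Agent.P297.H80.Z2
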