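import Vale.Agent.P297.H80.Z2.GenPt

/-!
The points of the surface on a generic line through a node of `T_l` depend on two parameters.
-/

set_option linter.unusedSectionVars false
set_option linter.unusedVariables false
set_option linter.style.haveILetI false

open Polynomial IntermediateField

namespace Vale.Agent.P297.H80.Z2

open Vale.Agent.P297 Vale.Agent.P297.Gen Vale.Agent.P297.H160.Z2Irr Vale.Agent.P297.Z2

variable {N : Type} [Field N] [Algebra ℂ N] [IsAlgClosed N] {P : Par}

theorem clo_cl0 (a : N) : clo (cl0 (∅ : Set N)) {a} = cl0 {a} := by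
  apply le_antisymm
  · refine clo_le (cl0_closed _) (cl0_le (cl0_closed _) (Set.empty_subset _)) ?_
    rintro _ rfl
    exact subset_cl0 _ rfl
  · refine cl0_le (clo_closed _ _) ?_
    rintro _ rfl
    exact subset_clo _ _ rfl

theorem mem_empty_iff {a : N} : a ∈ cl0 (∅ : Set N) ↔ IsAlgebraic ℂ a := by
  constructor
  · intro h
    by_contra h1
    have h2 : cl0 (∅ : Set N) ≤ algebraicClosure ℂ N := by
      refine cl0_le ?_ (Set.empty_subset _)
      intro u hu
      have h3 : u ∈ algebraicClosure (algebraicClosure ℂ N) N := mem_algebraicClosure_iff.2 hu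
      rw [algebraicClosure.algebraicClosure_eq_bot, IntermediateField.mem_bot] at h3
      obtain ⟨z, rfl⟩ := h3
      exact z.2
    exact h1 (mem_algebraicClosure_iff.1 (h2 h))
  · intro h
    apply cl0_closed
    obtain ⟨p, hp0, hp⟩ := h
    refine isAlgebraic_of_coeff (p := p.map (algebraMap ℂ N)) ?_ ?_ ?_
    · intro n
      rw [coeff_map]
      exact (cl0 ∅).algebraMap_mem _
    · exact (Polynomial.map_ne_zero_iff (algebraMap ℂ N).injective).2 hp0
    · rw [Polynomial.eval_map]
      exact hp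

/-- Two dependent elements. -/
theorem dep_iff {a b : N} (h : ¬ AlgebraicIndependent ℂ ![a, b]) :
    a ∈ cl0 (∅ : Set N) ∨ b ∈ cl0 {a} := by
  rw [pair_iff'] at h
  rw [mem_empty_iff, mem_cl0]
  by_contra h1
  push Not at h1
  exact h h1

/-- Of a family without independent pairs all are algebraic over one. -/
theorem exists_one {n : ℕ} {z : Fin n → N} (h : ∀ i j, ¬ AlgebraicIndependent ℂ ![z i, z j]) :
    (∀ i, z i ∈ cl0 (∅ : Set N)) ∨ ∃ k, z k ∉ cl0 (∅ : Set N) ∧ ∀ i, z i ∈ cl0 {z k} := by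
  by_cases h0 : ∀ i, z i ∈ cl0 (∅ : Set N)
  · exact Or.inl h0
  · push Not at h0
    obtain ⟨k, hk⟩ := h0
    exact Or.inr ⟨k, hk, fun i => (dep_iff (h k i)).resolve_left hk⟩

/-- The direction of a node is algebraic over `l`. -/
theorem node_mem {F : IntermediateField ℂ N} (hF : ∀ u : N, IsAlgebraic F u → u ∈ F)
    (hQ : P.Q0 ≠ P.Q1) {l al be : N} (hd : be - al = 1 - l)
    (hn : al * be * (algebraMap ℂ N P.Q0 * al - algebraMap ℂ N P.Q1 * be) =
      l * (algebraMap ℂ N P.P0 * al ^ 2 - algebraMap ℂ N P.P1 * al * be +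
        algebraMap ℂ N P.P2 * be ^ 2)) (hl : l ∈ F) (hl0 : l ∉ cl0 (∅ : Set N)) : al ∈ F := by
  apply hF
  have hbe : be = al + (1 - l) := by linear_combination hd
  set P0 := algebraMap ℂ N P.P0
  set P1 := algebraMap ℂ N P.P1
  set P2 := algebraMap ℂ N P.P2
  set Q0 := algebraMap ℂ N P.Q0 with hQ0'
  set Q1 := algebraMap ℂ N P.Q1 with hQ1'
  have hsub : Q0 - Q1 ≠ 0 := by
    rw [hQ0', hQ1', ← map_sub, Ne, map_eq_zero_iff _ (algebraMap ℂ N).injective]
    exact sub_ne_zero.2 hQ
  have mF : ∀ z : ℂ, algebraMap ℂ N z ∈ F := fun z => F.algebraMap_mem z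
  have h2F : (2 : N) ∈ F := by
    have := mF 2
    rwa [map_ofNat] at this
  have me : 1 - l ∈ F := sub_mem (one_mem _) hl
  refine isAlgebraic_of_coeff (p := C (Q0 - Q1) * X ^ 3 +
    C ((Q0 - 2 * Q1) * (1 - l) - l * (P0 - P1 + P2)) * X ^ 2 +
    C (-Q1 * (1 - l) ^ 2 - l * (-P1 * (1 - l) + 2 * P2 * (1 - l))) * X +
    C (-(l * (P2 * (1 - l) ^ 2)))) ?_ ?_ ?_
  · intro n
    have c3 : Q0 - Q1 ∈ F := sub_mem (mF _) (mF _)
    have c2 : (Q0 - 2 * Q1) * (1 - l) - l * (P0 - P1 + P2) ∈ F :=
      sub_mem (mul_mem (sub_mem (mF _) (mul_mem h2F (mF _))) me)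
        (mul_mem hl (add_mem (sub_mem (mF _) (mF _)) (mF _)))
    have c1 : -Q1 * (1 - l) ^ 2 - l * (-P1 * (1 - l) + 2 * P2 * (1 - l)) ∈ F :=
      sub_mem (mul_mem (neg_mem (mF _)) (pow_mem me 2))
        (mul_mem hl (add_mem (mul_mem (neg_mem (mF _)) me) (mul_mem (mul_mem h2F (mF _)) me)))
    have c0 : -(l * (P2 * (1 - l) ^ 2)) ∈ F := neg_mem (mul_mem hl (mul_mem (mF _) (pow_mem me 2)))
    simp only [coeff_add, coeff_C_mul, coeff_X_pow, coeff_X, coeff_C]
    refine add_mem (add_mem (add_mem (mul_mem c3 ?_) (mul_mem c2 ?_)) (mul_mem c1 ?_)) ?_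
    · split_ifs
      · exact one_mem _
      · exact zero_mem _
    · split_ifs
      · exact one_mem _
      · exact zero_mem _
    · split_ifs
      · exact one_mem _
      · exact zero_mem _
    · split_ifs
      · exact c0
      · exact zero_mem _
  · intro h0
    have h1 := congrArg (fun q : N[X] => q.coeff 3) h0
    simp only [coeff_add, coeff_C_mul, coeff_X_pow, coeff_X, coeff_C, coeff_zero] at h1
    norm_num at h1
    exact hsub h1
  · simp only [eval_add, eval_mul, eval_pow, eval_C, eval_X]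
    rw [hbe] at hn
    linear_combination hn

/-- **The points of the surface on a generic tangent line through a node of `T_l`, transported to
`l = 0`, depend on two parameters.** -/
theorem indep_z0 (hM : P.M1 = 0) (h0 : P.P0 ≠ 0) (h2 : P.P2 ≠ 0)
    (hQ0 : P.Q0 ≠ 0) (hQ1 : P.Q1 ≠ 0) (hQ : P.Q0 ≠ P.Q1)
    (hq : P.P0 * P.Q1 ^ 2 - P.P1 * P.Q0 * P.Q1 + P.P2 * P.Q0 ^ 2 ≠ 0)
    {l al be p0 r0 s e y : N} (hd : be - al = 1 - l)
    (hn : al * be * (algebraMap ℂ N P.Q0 * al - algebraMap ℂ N P.Q1 * be) =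
      l * (algebraMap ℂ N P.P0 * al ^ 2 - algebraMap ℂ N P.P1 * al * be +
        algebraMap ℂ N P.P2 * be ^ 2))
    (hB : ∀ y : N, tB P l (al * y + p0) (-be * y + r0) y = (s * y + e) ^ 2)
    (hl : l ∉ cl0 (∅ : Set N)) (hc : ¬ (p0 ∈ cl0 {l} ∧ r0 ∈ cl0 {l}))
    {p r S : N} (hp : p = al * y + p0) (hr : r = -be * y + r0) (hS : S ^ 2 = tB P l p r y)
    (hPhi : tPhi P l p r y S = 0) (hh0 : (dat P y).h 0 ≠ 0) (hhl : (dat P y).h l ≠ 0) :
    ∃ i j, AlgebraicIndependent ℂ
      ![(![p - l * ((dat P y).U * (dat P y).g * (dat P y).E p / (dat P y).h l),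
          r - l * ((dat P y).V * (dat P y).g * (dat P y).F r / (dat P y).h l), y] : Fin 3 → N) i,
        (![p - l * ((dat P y).U * (dat P y).g * (dat P y).E p / (dat P y).h l),
          r - l * ((dat P y).V * (dat P y).g * (dat P y).F r / (dat P y).h l), y] : Fin 3 → N)
          j] := by
  haveI : CharZero N := charZero_of_injective_algebraMap (algebraMap ℂ N).injective
  set D := dat P y with hD
  set x := p - l * (D.U * D.g * D.E p / D.h l) with hx
  set w := r - l * (D.V * D.g * D.F r / D.h l) with hw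
  by_contra hno
  push Not at hno
  set F := cl0 ({x, w, y} : Set N) with hFdef
  have hF : ∀ u : N, IsAlgebraic F u → u ∈ F := cl0_closed _
  have mx : x ∈ F := subset_cl0 _ (by simp)
  have mw : w ∈ F := subset_cl0 _ (by simp)
  have my : y ∈ F := subset_cl0 _ (by simp)
  have mF : ∀ z : ℂ, algebraMap ℂ N z ∈ F := fun z => F.algebraMap_mem z
  -- the scale
  have hhh : D.h l = D.h 0 + l * D.U * D.V * D.g := by
    unfold Dat.h
    ring
  set ξ := D.U * D.g * D.E x / D.h 0 with hξ
  set η := D.V * D.g * D.F w / D.h 0 with hη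
  have eE : D.E x * D.h l = D.E p * D.h 0 := by
    have h1 : D.E x = D.E p - D.V * (l * (D.U * D.g * D.E p / D.h l)) := by
      rw [hx]
      unfold Dat.E
      ring
    rw [h1]
    field_simp
    rw [hhh]
    ring
  have eF : D.F w * D.h l = D.F r * D.h 0 := by
    have h1 : D.F w = D.F r - D.U * (l * (D.V * D.g * D.F r / D.h l)) := by
      rw [hw]
      unfold Dat.F
      ring
    rw [h1]
    field_simp
    rw [hhh]
    ring
  have ep : p = x + l * ξ := by
    have h1 : D.E x / D.h 0 = D.E p / D.h l := by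
      rw [div_eq_div_iff hh0 hhl]
      exact eE
    have h3 : ξ = D.U * D.g * D.E p / D.h l := by
      rw [hξ, mul_div_assoc, h1, mul_div_assoc]
    rw [h3, hx]
    ring
  have er : r = w + l * η := by
    have h1 : D.F w / D.h 0 = D.F r / D.h l := by
      rw [div_eq_div_iff hh0 hhl]
      exact eF
    have h3 : η = D.V * D.g * D.F r / D.h l := by
      rw [hη, mul_div_assoc, h1, mul_div_assoc]
    rw [h3, hw]
    ring
  have datF : ∀ {G : IntermediateField ℂ N}, y ∈ G → (∀ z : N, z = D.U ∨ z = D.V ∨ z = D.g ∨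
      z = D.h 0 ∨ z = D.A ∨ z = D.B → z ∈ G) := by
    intro G hy z hz
    have mG : ∀ z : ℂ, algebraMap ℂ N z ∈ G := fun z => G.algebraMap_mem z
    have two : (2 : N) ∈ G := by
      have := mG 2
      rwa [map_ofNat] at this
    have mU : D.U ∈ G := add_mem hy (mG _)
    have mV : D.V ∈ G := add_mem hy (mG _)
    have mA : D.A ∈ G := mG _
    have mB : D.B ∈ G := mG _
    have ma : D.a ∈ G := add_mem (mul_mem two hy) (mG _)
    have mc : D.c ∈ G := add_mem (mul_mem two hy) (mG _)
    have mee : D.e ∈ G := add_mem (sub_mem (mG _) (pow_mem hy 2)) (mul_mem (mG _) hy)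
    have mm : D.m ∈ G := add_mem (sub_mem (mG _) (pow_mem hy 2)) (mul_mem (mG _) hy)
    have mg : D.g ∈ G := by
      unfold Dat.g
      exact add_mem (add_mem (mul_mem (mul_mem mU mV) mee) (mul_mem mA (pow_mem mV 3)))
        (mul_mem mB (pow_mem mU 3))
    have mh : D.h 0 ∈ G := by
      unfold Dat.h
      refine add_mem (sub_mem (sub_mem (sub_mem (pow_mem (add_mem (mul_mem mB (pow_mem mU 2))
        (mul_mem mA (pow_mem mV 2))) 2) ?_) ?_) ?_) ?_
      · exact mul_mem (mul_mem (mul_mem ma mB) (pow_mem mU 3)) mV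
      · exact mul_mem (mul_mem (mul_mem mc mA) (pow_mem mV 3)) mU
      · exact mul_mem (mul_mem mm (pow_mem mU 2)) (pow_mem mV 2)
      · exact mul_mem (mul_mem (mul_mem (zero_mem _) mU) mV) mg
    rcases hz with rfl | rfl | rfl | rfl | rfl | rfl
    exacts [mU, mV, mg, mh, mA, mB]
  have memG : ∀ {G : IntermediateField ℂ N}, x ∈ G → w ∈ G → y ∈ G → ξ ∈ G ∧ η ∈ G := by
    intro G gx gw gy
    have k := datF gy
    have mE : D.E x ∈ G := add_mem (mul_mem (k _ (by simp)) gx) (mul_mem (k _ (by simp)) (k _ (by simp)))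
    have mFF : D.F w ∈ G :=
      add_mem (mul_mem (k _ (by simp)) gw) (mul_mem (k _ (by simp)) (k _ (by simp)))
    exact ⟨div_mem (mul_mem (mul_mem (k _ (by simp)) (k _ (by simp))) mE) (k _ (by simp)),
      div_mem (mul_mem (mul_mem (k _ (by simp)) (k _ (by simp))) mFF) (k _ (by simp))⟩
  obtain ⟨mξ, mη⟩ := memG mx mw my
  -- a closed subfield which contains everything
  have noG : ∀ {G : IntermediateField ℂ N}, (∀ u : N, IsAlgebraic G u → u ∈ G) → l ∈ G →
      x ∈ G → w ∈ G → y ∈ G → p0 ∈ G ∧ r0 ∈ G := by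
    intro G hG gl gx gw gy
    obtain ⟨g1, g2⟩ := memG gx gw gy
    have gal : al ∈ G := node_mem hG hQ hd hn gl hl
    have gbe : be ∈ G := by
      have : be = al + (1 - l) := by linear_combination hd
      rw [this]
      exact add_mem gal (sub_mem (one_mem _) gl)
    have gp : p ∈ G := by rw [ep]; exact add_mem gx (mul_mem gl g1)
    have gr : r ∈ G := by rw [er]; exact add_mem gw (mul_mem gl g2)
    constructor
    · have : p0 = p - al * y := by rw [hp]; ring
      rw [this]
      exact sub_mem gp (mul_mem gal gy)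
    · have : r0 = r + be * y := by rw [hr]; ring
      rw [this]
      exact add_mem gr (mul_mem gbe gy)
  have leG : ∀ {G : IntermediateField ℂ N}, (∀ u : N, IsAlgebraic G u → u ∈ G) → l ∈ G →
      x ∈ G → w ∈ G → y ∈ G → ¬ G ≤ cl0 {l} := by
    intro G hG gl gx gw gy hle
    obtain ⟨g1, g2⟩ := noG hG gl gx gw gy
    exact hc ⟨hle g1, hle g2⟩
  have eml : cl0 (∅ : Set N) ≤ cl0 {l} := cl0_le (cl0_closed _) (Set.empty_subset _)
  have mll : l ∈ cl0 ({l} : Set N) := subset_cl0 _ rfl
  -- l is not in F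
  have hlF : l ∉ F := by
    intro hlF
    have hF1 : F ≤ cl0 {l} := by
      rcases exists_one hno with h | ⟨k, hk, h⟩
      · refine cl0_le (cl0_closed _) ?_
        rintro z (rfl | rfl | rfl)
        · exact eml (h 0)
        · exact eml (h 1)
        · exact eml (h 2)
      · have h3 : F ≤ cl0 {(![x, w, y] : Fin 3 → N) k} := by
          refine cl0_le (cl0_closed _) ?_
          rintro z (rfl | rfl | rfl)
          · exact h 0
          · exact h 1
          · exact h 2
        have h4 : l ∈ clo (cl0 (∅ : Set N)) {(![x, w, y] : Fin 3 → N) k} := by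
          rw [clo_cl0]
          exact h3 hlF
        have h5 := exchange (cl0_closed _) h4 hl
        rw [clo_cl0] at h5
        refine h3.trans (cl0_le (cl0_closed _) ?_)
        rintro _ rfl
        exact h5
    exact leG hF hlF mx mw my hF1
  -- specialisation
  have ht : tg P l (x + l * ξ) (w + l * η) y al be = 0 := by
    rw [← ep, ← er, hp, hr]
    exact tg_of_tan hB
  have hNm : Nm P l (x + l * ξ) (w + l * η) y = 0 := by
    rw [← ep, ← er]
    exact Nm_eq_zero P hS hPhi
  obtain ⟨t1, t2, t3, t4⟩ := spec_three h0 h2 hQ0 hQ1 hQ hq hF hd hn hlF mx mw my mξ mη ht hNm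
  have hQN : algebraMap ℂ N P.Q0 - algebraMap ℂ N P.Q1 ≠ 0 := by
    rw [← map_sub, Ne, map_eq_zero_iff _ (algebraMap ℂ N).injective]
    exact sub_ne_zero.2 hQ
  have ea := div_mul_cancel₀ (algebraMap ℂ N P.Q1) hQN
  have eb := div_mul_cancel₀ (algebraMap ℂ N P.Q0) hQN
  obtain ⟨f1, f2, f3⟩ := end_alg hM h0 h2 hQ0 hQ1 hQ t1 t2 ea eb (t4 _ _ ea eb) t3 hh0
  -- everything is constant
  set G := cl0 (∅ : Set N) with hG
  have mG : ∀ z : ℂ, algebraMap ℂ N z ∈ G := fun z => G.algebraMap_mem z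
  have four : (4 : N) ∈ G := by
    have := mG 4
    rwa [map_ofNat] at this
  have gx : x ∈ G := by rw [f1]; exact div_mem (mG _) four
  have gw : w ∈ G := by rw [f2]; exact div_mem (mG _) four
  have gs : (x + w + y) ^ 2 ∈ G := by
    rw [f3]
    unfold nn
    exact add_mem (sub_mem (sub_mem (mul_mem four (sub_mem (mul_mem gx gw)
      (mul_mem (mG _) (mG _)))) (mul_mem (mG _) gx)) (mul_mem (mG _) gw)) (mG _)
  have gs' : x + w + y ∈ G := by
    apply cl0_closed
    refine isAlgebraic_of_coeff (p := X ^ 2 - C ((x + w + y) ^ 2)) ?_ ?_ ?_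
    · intro n
      simp only [coeff_sub, coeff_X_pow, coeff_C]
      refine sub_mem ?_ ?_
      · split_ifs
        · exact one_mem _
        · exact zero_mem _
      · split_ifs
        · exact gs
        · exact zero_mem _
    · exact X_pow_sub_C_ne_zero (by norm_num) _
    · simp
  have gy : y ∈ G := by
    have : y = (x + w + y) - x - w := by ring
    rw [this]
    exact sub_mem (sub_mem gs' gx) gw
  exact leG (cl0_closed _) mll (eml gx) (eml gw) (eml gy) le_rfl

end Vale.Agent.P297.H80.Z2
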