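import Vale.Agent.P297.H72.Z2.TDefs
import Vale.Agent.P297.Gen.Setup

/-!
Polynomial identities in a transcendental parameter, specialised to constant values of the
parameter.
-/

set_option linter.unusedSectionVars false
set_option linter.unusedVariables false

open Polynomial

namespace Vale.Agent.P297.H80.Z2

open Vale.Agent.P297 Vale.Agent.P297.Gen

/-- Clearing the common denominator. -/
theorem exists_clear {F : Type} [Field F] {ι : Type} (A : ι → F[X]) (D : F[X])
    (R : MvPolynomial ι F) : ∃ (n : ℕ) (Q : F[X]), ∀ (N : Type) [Field N] [Algebra F N] (x : N),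
      aeval x D ≠ 0 →
      (aeval x D) ^ n * MvPolynomial.aeval (fun i => aeval x (A i) / aeval x D) R = aeval x Q := by
  induction R using MvPolynomial.induction_on with
  | C a =>
    refine ⟨0, C a, ?_⟩
    intro N _ _ x hx
    rw [pow_zero, one_mul, MvPolynomial.aeval_C, aeval_C]
  | add p q hp hq =>
    obtain ⟨n, Q, hQ⟩ := hp
    obtain ⟨m, Q', hQ'⟩ := hq
    refine ⟨n + m, D ^ m * Q + D ^ n * Q', ?_⟩
    intro N _ _ x hx
    rw [map_add, map_add, map_mul, map_mul, ← hQ N x hx, ← hQ' N x hx, map_pow, map_pow]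
    ring
  | mul_X p i hp =>
    obtain ⟨n, Q, hQ⟩ := hp
    refine ⟨n + 1, Q * A i, ?_⟩
    intro N _ _ x hx
    rw [map_mul, map_mul, ← hQ N x hx, MvPolynomial.aeval_X]
    field_simp
    ring

/-- **Specialisation of the parameter.** -/
theorem spec_param {N : Type} [Field N] [Algebra ℂ N] {F : IntermediateField ℂ N}
    (hF : ∀ u : N, IsAlgebraic F u → u ∈ F) {ι : Type} (A : ι → F[X]) (D : F[X]) (R : MvPolynomial ι F) {t : N} (ht : t ∉ F)
    (hD : aeval t D ≠ 0)
    (hR : MvPolynomial.aeval (fun i => aeval t (A i) / aeval t D) R = 0) (c : F)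
    (hc : aeval c D ≠ 0) : MvPolynomial.aeval (fun i => aeval c (A i) / aeval c D) R = 0 := by
  obtain ⟨n, Q, hQ⟩ := exists_clear A D R
  have h1 := hQ N t hD
  rw [hR, mul_zero] at h1
  have h2 : Q = 0 := by
    by_contra h0
    exact ht (hF t ⟨Q, h0, h1.symm⟩)
  have h3 := hQ F c hc
  rw [h2, map_zero] at h3
  rcases mul_eq_zero.1 h3 with h4 | h4
  · exact absurd (pow_eq_zero_iff (n := n) (by
      rintro rfl
      rw [pow_zero] at h4
      exact one_ne_zero h4) |>.1 h4) hc
  · exact h4

end Vale.Agent.P297.H80.Z2
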