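import Vale.Agent.P297.H80.Z2.Spec

/-!
The discriminant of the branch quartic on the lines through a node, and its values at the three
nodes over `l = 0`.
-/

set_option linter.unusedSectionVars false
set_option linter.unusedVariables false

open Polynomial

namespace Vale.Agent.P297.H80.Z2

open Vale.Agent.P297 Vale.Agent.P297.Gen Vale.Agent.P297.H160.Z2Irr Vale.Agent.P297.Z2

section ring

variable {R : Type*} [CommRing R] [Algebra ℂ R] (P : Par)

/-- The branch quartic on the line through `(p, r, y)` with direction `(a, -b, 1)`. -/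
noncomputable def lineB (l p r y a b : R) : R[X] :=
  tB P (C l) (C p + C a * X) (C r - C b * X) (C y + X)

/-- Its discriminant, if it is a quadratic polynomial. -/
noncomputable def tg (l p r y a b : R) : R :=
  (lineB P l p r y a b).coeff 1 ^ 2 -
    4 * (lineB P l p r y a b).coeff 0 * (lineB P l p r y a b).coeff 2

/-- The norm of the equation of the surface. -/
def Nm (l p r y : R) : R :=
  tPhi P l p r y 0 ^ 2 - (tPhi P l p r y 1 - tPhi P l p r y 0) ^ 2 * tB P l p r y

variable {R' : Type*} [CommRing R'] [Algebra ℂ R'] (f : R →ₐ[ℂ] R')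

theorem map_lineB (l p r y a b : R) :
    (lineB P l p r y a b).map (f : R →+* R') = lineB P (f l) (f p) (f r) (f y) (f a) (f b) := by
  unfold lineB
  have h := map_tB P (Polynomial.mapAlgHom f) (C l) (C p + C a * X) (C r - C b * X) (C y + X)
  rw [Polynomial.coe_mapAlgHom] at h
  simp only [Polynomial.map_add, Polynomial.map_sub, Polynomial.map_mul, Polynomial.map_C,
    Polynomial.map_X, RingHom.coe_coe] at h
  exact h

theorem map_tg (l p r y a b : R) :
    f (tg P l p r y a b) = tg P (f l) (f p) (f r) (f y) (f a) (f b) := by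
  unfold tg
  rw [← map_lineB]
  simp only [Polynomial.coeff_map, map_sub, map_mul, map_pow, map_ofNat, RingHom.coe_coe]

theorem map_Nm (l p r y : R) : f (Nm P l p r y) = Nm P (f l) (f p) (f r) (f y) := by
  unfold Nm
  simp only [map_sub, map_mul, map_pow, map_tPhi, map_tB, map_zero, map_one]

theorem Nm_eq_zero {l p r y S : R} (hS : S ^ 2 = tB P l p r y) (hPhi : tPhi P l p r y S = 0) :
    Nm P l p r y = 0 := by
  have h1 : tPhi P l p r y S = tPhi P l p r y 0 +
      (tPhi P l p r y 1 - tPhi P l p r y 0) * S := by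
    unfold tPhi Dat.Phi
    ring
  rw [hPhi] at h1
  unfold Nm
  rw [← hS]
  linear_combination (-tPhi P l p r y 0 + (tPhi P l p r y 1 - tPhi P l p r y 0) * S) * h1

theorem coeff_cubic (a b c d : R) (n : ℕ) :
    (C a + C b * X + C c * X ^ 2 + C d * X ^ 3 : R[X]).coeff n =
      (if n = 0 then a else 0) + (if n = 1 then b else 0) + (if n = 2 then c else 0) +
        (if n = 3 then d else 0) := by
  simp only [coeff_add, coeff_C_mul, coeff_X_pow, coeff_C, coeff_X, mul_ite, mul_one, mul_zero,
    eq_comm (a := (1 : ℕ))]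

variable {P}

theorem tg_of_eq {l p r y a b u v w z : R}
    (h : lineB P l p r y a b = C u + C v * X + C w * X ^ 2 + C z * X ^ 3) :
    tg P l p r y a b = v ^ 2 - 4 * u * w := by
  unfold tg
  rw [h]
  simp only [coeff_cubic]
  simp

/-- the quadric at `l = 0` -/
def jj (P : Par) (x w y : R) : R :=
  (x + w + y) ^ 2 + algebraMap ℂ R P.Q0 * x + algebraMap ℂ R P.Q1 * w - algebraMap ℂ R P.m

def nn (P : Par) (x w : R) : R := x * w - algebraMap ℂ R P.P0 * algebraMap ℂ R P.P2

theorem tB_zero (hM : P.M1 = 0) (x w y : R) :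
    tB P 0 x w y = jj P x w y * (jj P x w y - 4 * nn P x w) := by
  unfold tB dat Dat.Bq Dat.K Dat.J0 Dat.J1 Dat.N Dat.E Dat.F jj nn fa fc fm
  rw [hM, map_zero]
  ring

theorem lineB_zero (hM : P.M1 = 0) {x w y a b : R} (hab : a = b - 1) :
    lineB P 0 x w y a b =
      (C (jj P x w y) + C (algebraMap ℂ R P.Q0 * a - algebraMap ℂ R P.Q1 * b) * X) *
      (C (jj P x w y - 4 * nn P x w) + C (algebraMap ℂ R P.Q0 * a - algebraMap ℂ R P.Q1 * b -
        4 * (a * w - b * x)) * X + C (4 * (a * b)) * X ^ 2) := by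
  unfold lineB
  rw [map_zero, tB_zero hM]
  unfold jj nn
  subst hab
  have e : ∀ c : ℂ, algebraMap ℂ R[X] c = C (algebraMap ℂ R c) := fun c => rfl
  simp only [e, map_add, map_sub, map_mul, map_pow, map_ofNat, map_one]
  ring

theorem tg_zero (hM : P.M1 = 0) {x w y a b : R} (hab : a = b - 1) :
    tg P 0 x w y a b =
      (jj P x w y * (algebraMap ℂ R P.Q0 * a - algebraMap ℂ R P.Q1 * b - 4 * (a * w - b * x)) +
        (algebraMap ℂ R P.Q0 * a - algebraMap ℂ R P.Q1 * b) * (jj P x w y - 4 * nn P x w)) ^ 2 -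
      4 * (jj P x w y * (jj P x w y - 4 * nn P x w)) * (jj P x w y * (4 * (a * b)) +
        (algebraMap ℂ R P.Q0 * a - algebraMap ℂ R P.Q1 * b) *
        (algebraMap ℂ R P.Q0 * a - algebraMap ℂ R P.Q1 * b - 4 * (a * w - b * x))) := by
  refine tg_of_eq (z := (algebraMap ℂ R P.Q0 * a - algebraMap ℂ R P.Q1 * b) * (4 * (a * b))) ?_
  rw [lineB_zero hM hab]
  simp only [map_add, map_sub, map_mul]
  ring

end ring

section field

variable {N : Type} [Field N] [Algebra ℂ N]

variable {P : Par}

/-- the tangent lines -/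
theorem tg_of_tan [CharZero N] {l al be p r s s0 y : N}
    (tan : ∀ y, tB P l (al * y + p) (-be * y + r) y = (s * y + s0) ^ 2) :
    tg P l (al * y + p) (-be * y + r) y al be = 0 := by
  have h : lineB P l (al * y + p) (-be * y + r) y al be =
      C ((s * y + s0) ^ 2) + C (2 * s * (s * y + s0)) * X + C (s ^ 2) * X ^ 2 + C 0 * X ^ 3 := by
    apply Polynomial.funext
    intro τ
    have h1 := map_tB P ((Polynomial.aeval τ : N[X] →ₐ[N] N).restrictScalars ℂ) (C l)
      (C (al * y + p) + C al * X) (C (-be * y + r) - C be * X) (C y + X)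
    unfold lineB
    have h2 : ∀ g : N[X], ((Polynomial.aeval τ : N[X] →ₐ[N] N).restrictScalars ℂ) g =
        g.eval τ := fun g => by
      rw [AlgHom.restrictScalars_apply, Polynomial.coe_aeval_eq_eval]
    simp only [h2] at h1
    rw [h1]
    simp only [eval_add, eval_sub, eval_mul, eval_C, eval_X, eval_pow]
    have h3 := tan (y + τ)
    have e1 : al * y + p + al * τ = al * (y + τ) + p := by ring
    have e2 : -be * y + r - be * τ = -be * (y + τ) + r := by ring
    rw [e1, e2, h3]
    ring
  rw [tg_of_eq h]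
  ring

end field

end Vale.Agent.P297.H80.Z2
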