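import Vale.Agent.P297.H80.Z2.Indep

/-!
The lines of the planes `y = const` everywhere tangent to the branch surface of the double solid
`T_0`.
-/

set_option linter.unusedSectionVars false
set_option linter.unusedVariables false
set_option linter.style.haveILetI false

open Polynomial IntermediateField

namespace Vale.Agent.P297.H80.Z2

open Vale.Agent.P297 Vale.Agent.P297.Gen Vale.Agent.P297.H160.Z2Irr Vale.Agent.P297.Z2

section square

variable {E : Type} [Field E] [IsAlgClosed E]

theorem quad_natDegree {f2 f1 f0 : E} (h : f2 ≠ 0) :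
    (C f2 * X ^ 2 + C f1 * X + C f0 : E[X]).natDegree = 2 := natDegree_quadratic h

theorem exists_roots {f2 f1 f0 : E} (h : f2 ≠ 0) : ∃ a b : E, f1 = -(f2 * (a + b)) ∧
    f0 = f2 * (a * b) := by
  obtain ⟨a, ha⟩ := IsAlgClosed.exists_root (C f2 * X ^ 2 + C f1 * X + C f0) (by
    intro h0
    have := natDegree_eq_of_degree_eq_some h0
    rw [quad_natDegree h] at this
    exact absurd this (by norm_num))
  simp only [IsRoot.def, eval_add, eval_mul, eval_pow, eval_C, eval_X] at ha
  refine ⟨a, -(f1 / f2) - a, ?_, ?_⟩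
  · field_simp
    ring
  · field_simp
    linear_combination ha

/-- The product of two quadratic polynomials is a square. -/
theorem square_cases [CharZero E] {f2 f1 f0 g2 g1 g0 : E} (hf : f2 ≠ 0) (hg : g2 ≠ 0) {q : E[X]}
    (h : (C f2 * X ^ 2 + C f1 * X + C f0) * (C g2 * X ^ 2 + C g1 * X + C g0) = q ^ 2) :
    (f1 ^ 2 = 4 * f2 * f0 ∧ g1 ^ 2 = 4 * g2 * g0) ∨ (g1 * f2 = g2 * f1 ∧ g0 * f2 = g2 * f0) := by
  obtain ⟨a, b, ha1, ha0⟩ := exists_roots (f1 := f1) (f0 := f0) hf
  obtain ⟨c, d, hc1, hc0⟩ := exists_roots (f1 := g1) (f0 := g0) hg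
  have hd := congrArg derivative h
  have hev : ∀ z : E, (f2 * (z - a) * (z - b)) * (g2 * (z - c) * (z - d)) = q.eval z ^ 2 := by
    intro z
    have h1 := congrArg (eval z) h
    simp only [eval_mul, eval_add, eval_pow, eval_C, eval_X] at h1
    rw [← h1, ha1, ha0, hc1, hc0]
    ring
  have hde : ∀ z : E, f2 * ((z - a) + (z - b)) * (g2 * (z - c) * (z - d)) +
      f2 * (z - a) * (z - b) * (g2 * ((z - c) + (z - d))) =
      2 * q.eval z * (derivative q).eval z := by
    intro z
    have h1 := congrArg (eval z) hd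
    simp only [derivative_mul, derivative_add, derivative_pow, derivative_C, derivative_X,
      eval_mul, eval_add, eval_pow, eval_C, eval_X, eval_zero, zero_mul, zero_add, mul_one,
      eval_one, eval_natCast, Nat.cast_ofNat, add_zero] at h1
    norm_num at h1
    rw [← h1, ha1, ha0, hc1, hc0]
    ring
  have q0 : ∀ z : E, (f2 * (z - a) * (z - b)) * (g2 * (z - c) * (z - d)) = 0 → q.eval z = 0 := by
    intro z hz
    have := hev z
    rw [hz] at this
    exact pow_eq_zero_iff two_ne_zero |>.1 this.symm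
  have key1 : a ≠ b → (a = c ∨ a = d) ∧ (b = c ∨ b = d) := by
    intro hab
    constructor
    · have h1 := hde a
      rw [q0 a (by ring), sub_self] at h1
      have h2 : (f2 * (a - b) * g2) * ((a - c) * (a - d)) = 0 := by linear_combination h1
      rcases mul_eq_zero.1 h2 with h3 | h3
      · exact absurd h3 (mul_ne_zero (mul_ne_zero hf (sub_ne_zero.2 hab)) hg)
      · rcases mul_eq_zero.1 h3 with h4 | h4
        · exact Or.inl (sub_eq_zero.1 h4)
        · exact Or.inr (sub_eq_zero.1 h4)
    · have h1 := hde b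
      rw [q0 b (by ring), sub_self] at h1
      have h2 : (f2 * (b - a) * g2) * ((b - c) * (b - d)) = 0 := by linear_combination h1
      rcases mul_eq_zero.1 h2 with h3 | h3
      · exact absurd h3 (mul_ne_zero (mul_ne_zero hf (sub_ne_zero.2 hab.symm)) hg)
      · rcases mul_eq_zero.1 h3 with h4 | h4
        · exact Or.inl (sub_eq_zero.1 h4)
        · exact Or.inr (sub_eq_zero.1 h4)
  have key2 : c ≠ d → (c = a ∨ c = b) ∧ (d = a ∨ d = b) := by
    intro hab
    constructor
    · have h1 := hde c
      rw [q0 c (by ring), sub_self] at h1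
      have h2 : (g2 * (c - d) * f2) * ((c - a) * (c - b)) = 0 := by linear_combination h1
      rcases mul_eq_zero.1 h2 with h3 | h3
      · exact absurd h3 (mul_ne_zero (mul_ne_zero hg (sub_ne_zero.2 hab)) hf)
      · rcases mul_eq_zero.1 h3 with h4 | h4
        · exact Or.inl (sub_eq_zero.1 h4)
        · exact Or.inr (sub_eq_zero.1 h4)
    · have h1 := hde d
      rw [q0 d (by ring), sub_self] at h1
      have h2 : (g2 * (d - c) * f2) * ((d - a) * (d - b)) = 0 := by linear_combination h1
      rcases mul_eq_zero.1 h2 with h3 | h3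
      · exact absurd h3 (mul_ne_zero (mul_ne_zero hg (sub_ne_zero.2 hab.symm)) hf)
      · rcases mul_eq_zero.1 h3 with h4 | h4
        · exact Or.inl (sub_eq_zero.1 h4)
        · exact Or.inr (sub_eq_zero.1 h4)
  have hpro : (a = c ∧ b = d) ∨ (a = d ∧ b = c) →
      (g1 * f2 = g2 * f1 ∧ g0 * f2 = g2 * f0) := by
    rintro (⟨rfl, rfl⟩ | ⟨rfl, rfl⟩)
    · rw [ha1, ha0, hc1, hc0]
      constructor <;> ring
    · rw [ha1, ha0, hc1, hc0]
      constructor <;> ring
  by_cases hab : a = b
  · by_cases hcd : c = d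
    · left
      rw [ha1, ha0, hc1, hc0, hab, hcd]
      constructor <;> ring
    · obtain ⟨h1, h2⟩ := key2 hcd
      rw [hab] at h1 h2
      exact absurd ((h1.elim id id).trans (h2.elim id id).symm) hcd
  · right
    apply hpro
    obtain ⟨h1, h2⟩ := key1 hab
    rcases h1 with h1 | h1 <;> rcases h2 with h2 | h2
    · exact absurd (h1.trans h2.symm) hab
    · exact Or.inl ⟨h1, h2⟩
    · exact Or.inr ⟨h1, h2⟩
    · exact absurd (h1.trans h2.symm) hab

theorem not_odd {f1 f0 g2 g1 g0 : E} (hf : f1 ≠ 0) (hg : g2 ≠ 0) {q : E[X]}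
    (h : (C f1 * X + C f0) * (C g2 * X ^ 2 + C g1 * X + C g0) = q ^ 2) : False := by
  have h1 := congrArg natDegree h
  have hf' : (C f1 * X + C f0 : E[X]) ≠ 0 := by
    intro h0
    have h2 := natDegree_linear (a := f1) (b := f0) hf
    rw [h0, natDegree_zero] at h2
    exact absurd h2 (by norm_num)
  have hg' : (C g2 * X ^ 2 + C g1 * X + C g0 : E[X]) ≠ 0 := by
    intro h0
    have h2 := quad_natDegree (f1 := g1) (f0 := g0) hg
    rw [h0, natDegree_zero] at h2
    exact absurd h2 (by norm_num)
  rw [natDegree_mul hf' hg', natDegree_linear hf, quad_natDegree hg, natDegree_pow] at h1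
  omega

end square

end Vale.Agent.P297.H80.Z2
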