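import Vale.Agent.P297.H80.Z2.Zero

/-!
The lines of the planes `y = const` everywhere tangent to the branch surface of the double solid
`T_0`: their directions, and the tangent lines through the first node which meet them.
-/

set_option linter.unusedSectionVars false
set_option linter.unusedVariables false
set_option linter.style.haveILetI false

open Polynomial IntermediateField

namespace Vale.Agent.P297.H80.Z2

open Vale.Agent.P297 Vale.Agent.P297.Gen Vale.Agent.P297.H160.Z2Irr Vale.Agent.P297.Z2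

section

variable {E : Type} [Field E] [Algebra ℂ E] [IsAlgClosed E] {P : Par}

theorem mem_of_poly {G : IntermediateField ℂ E} (hG : ∀ u : E, IsAlgebraic G u → u ∈ G)
    {F : G[X]} {x : E} (hx : aeval x F = 0) {c : G} (hc : F.eval c ≠ 0) : x ∈ G := by
  apply hG
  refine ⟨F, ?_, hx⟩
  rintro rfl
  exact hc eval_zero

theorem sq_mem' {G : IntermediateField ℂ E} (hG : ∀ u : E, IsAlgebraic G u → u ∈ G) {x : E}
    (hx : x ^ 2 ∈ G) : x ∈ G := by
  apply hG
  refine ⟨X ^ 2 - C ⟨x ^ 2, hx⟩, X_pow_sub_C_ne_zero (by norm_num) _, ?_⟩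
  rw [map_sub, map_pow, aeval_X, aeval_C]
  exact sub_self _

theorem tB_line (hM : P.M1 = 0) (p0 p1 r0 r1 y : E) :
    tB P (C 0 : E[X]) (C p0 + C p1 * X) (C r0 + C r1 * X) (C y) =
      (C ((p1 + r1) ^ 2) * X ^ 2 + C (2 * (p0 + r0 + y) * (p1 + r1) + algebraMap ℂ E P.Q0 * p1 +
        algebraMap ℂ E P.Q1 * r1) * X + C (jj P p0 r0 y)) *
      (C ((p1 - r1) ^ 2) * X ^ 2 + C (2 * (p0 + r0 + y) * (p1 + r1) + algebraMap ℂ E P.Q0 * p1 +
        algebraMap ℂ E P.Q1 * r1 - 4 * (p0 * r1 + p1 * r0)) * X +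
        C (jj P p0 r0 y - 4 * nn P p0 r0)) := by
  rw [map_zero, tB_zero hM]
  unfold jj nn
  have e : ∀ c : ℂ, algebraMap ℂ E[X] c = C (algebraMap ℂ E c) := fun c => rfl
  simp only [e, map_add, map_sub, map_mul, map_pow, map_ofNat]
  ring

theorem line_dir (hM : P.M1 = 0) (h0 : P.P0 ≠ 0) (h2 : P.P2 ≠ 0)
    (hQ1 : P.Q1 ≠ 0) (hQ : P.Q0 ≠ P.Q1) {p0 p1 r0 r1 y : E}
    (hy : y ∉ cl0 (∅ : Set E)) (hne : p1 ≠ 0 ∨ r1 ≠ 0) {q : E[X]}
    (h : tB P (C 0 : E[X]) (C p0 + C p1 * X) (C r0 + C r1 * X) (C y) = q ^ 2) :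
    p1 + r1 ≠ 0 ∧ p1 - r1 ≠ 0 ∧ p1 ≠ 0 := by
  haveI : CharZero E := charZero_of_injective_algebraMap (algebraMap ℂ E).injective
  have four : (4 : E) ≠ 0 := by norm_num
  have nz : ∀ {z : ℂ}, z ≠ 0 → algebraMap ℂ E z ≠ 0 := fun {z} hz => by
    rwa [Ne, map_eq_zero_iff _ (algebraMap ℂ E).injective]
  set G := cl0 (∅ : Set E) with hG
  have hGc : ∀ u : E, IsAlgebraic G u → u ∈ G := cl0_closed _
  have mG : ∀ z : ℂ, algebraMap ℂ E z ∈ G := fun z => G.algebraMap_mem z
  rw [tB_line hM] at h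
  have hQ' : algebraMap ℂ E P.Q0 - algebraMap ℂ E P.Q1 ≠ 0 := by
    rw [← map_sub]
    exact nz (sub_ne_zero.2 hQ)
  have hA : p1 + r1 ≠ 0 := by
    intro h3
    have hr : r1 = -p1 := by linear_combination h3
    have hp : p1 ≠ 0 := by
      rcases hne with h4 | h4
      · exact h4
      · intro h5
        rw [hr, h5, neg_zero] at h4
        exact h4 rfl
    rw [h3, zero_pow two_ne_zero, map_zero, zero_mul, zero_add] at h
    refine not_odd ?_ ?_ h
    · rw [hr]
      have : 2 * (p0 + r0 + y) * 0 + algebraMap ℂ E P.Q0 * p1 + algebraMap ℂ E P.Q1 * -p1 =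
        (algebraMap ℂ E P.Q0 - algebraMap ℂ E P.Q1) * p1 := by ring
      rw [this]
      exact mul_ne_zero hQ' hp
    · rw [hr]
      have : (p1 - -p1) ^ 2 = 4 * p1 ^ 2 := by ring
      rw [this]
      exact mul_ne_zero four (pow_ne_zero 2 hp)
  have hB : p1 - r1 ≠ 0 := by
    intro h3
    have hr : r1 = p1 := by linear_combination -h3
    have hp : p1 ≠ 0 := by
      rcases hne with h4 | h4
      · exact h4
      · rwa [hr] at h4
    rw [h3, zero_pow two_ne_zero, map_zero, zero_mul, zero_add, mul_comm] at h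
    refine not_odd ?_ ?_ h
    · rw [hr]
      have : 2 * (p0 + r0 + y) * (p1 + p1) + algebraMap ℂ E P.Q0 * p1 +
        algebraMap ℂ E P.Q1 * p1 - 4 * (p0 * p1 + p1 * r0) =
        p1 * (4 * y + (algebraMap ℂ E P.Q0 + algebraMap ℂ E P.Q1)) := by ring
      rw [this]
      refine mul_ne_zero hp ?_
      intro h4
      apply hy
      have h5 : y = -(algebraMap ℂ E P.Q0 + algebraMap ℂ E P.Q1) / algebraMap ℂ E 4 := by
        rw [map_ofNat, eq_div_iff four]
        linear_combination h4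
      rw [h5]
      exact div_mem (neg_mem (add_mem (mG _) (mG _))) (mG _)
    · rw [hr]
      have : (p1 + p1) ^ 2 = 4 * p1 ^ 2 := by ring
      rw [this]
      exact mul_ne_zero four (pow_ne_zero 2 hp)
  refine ⟨hA, hB, ?_⟩
  intro hp
  have hr : r1 ≠ 0 := by
    rcases hne with h4 | h4
    · exact absurd hp h4
    · exact h4
  rcases square_cases (pow_ne_zero 2 hA) (pow_ne_zero 2 hB) h with ⟨ha, hb⟩ | ⟨ha, hb⟩
  · rw [hp] at ha hb
    have e1 : (algebraMap ℂ E P.Q0 - algebraMap ℂ E P.Q1) * p0 * 4 =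
        4 * algebraMap ℂ E P.Q1 * y + algebraMap ℂ E P.Q1 ^ 2 + 4 * algebraMap ℂ E P.m := by
      apply mul_left_cancel₀ (pow_ne_zero 2 hr)
      unfold jj at ha
      linear_combination -ha
    have e2 : p0 * (2 * y + algebraMap ℂ E P.Q1) =
        -(2 * (algebraMap ℂ E P.P0 * algebraMap ℂ E P.P2)) := by
      apply mul_left_cancel₀ (pow_ne_zero 2 hr)
      unfold jj at ha hb
      unfold nn at hb
      linear_combination (ha - hb) / 8
    have e3 : (4 * algebraMap ℂ E P.Q1 * y + algebraMap ℂ E P.Q1 ^ 2 + 4 * algebraMap ℂ E P.m) *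
        (2 * y + algebraMap ℂ E P.Q1) +
        8 * (algebraMap ℂ E P.Q0 - algebraMap ℂ E P.Q1) *
          (algebraMap ℂ E P.P0 * algebraMap ℂ E P.P2) = 0 := by
      linear_combination (-(2 * y + algebraMap ℂ E P.Q1)) * e1 +
        4 * (algebraMap ℂ E P.Q0 - algebraMap ℂ E P.Q1) * e2
    apply hy
    apply hGc
    refine isAlgebraic_of_coeff (p := C (algebraMap ℂ E (8 * P.Q1)) * X ^ 2 +
      C (algebraMap ℂ E (6 * P.Q1 ^ 2 + 8 * P.m)) * X +
      C (algebraMap ℂ E (P.Q1 ^ 3 + 4 * P.m * P.Q1 + 8 * (P.Q0 - P.Q1) * (P.P0 * P.P2)))) ?_ ?_ ?_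
    · intro n
      simp only [coeff_add, coeff_C_mul, coeff_X_pow, coeff_X, coeff_C]
      refine add_mem (add_mem (mul_mem (mG _) ?_) (mul_mem (mG _) ?_)) ?_
      · split_ifs
        · exact one_mem _
        · exact zero_mem _
      · split_ifs
        · exact one_mem _
        · exact zero_mem _
      · split_ifs
        · exact mG _
        · exact zero_mem _
    · intro h5
      have h6 := quad_natDegree (f1 := algebraMap ℂ E (6 * P.Q1 ^ 2 + 8 * P.m))
        (f0 := algebraMap ℂ E (P.Q1 ^ 3 + 4 * P.m * P.Q1 + 8 * (P.Q0 - P.Q1) * (P.P0 * P.P2)))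
        (nz (mul_ne_zero (by norm_num) hQ1 : (8 : ℂ) * P.Q1 ≠ 0))
      rw [h5, natDegree_zero] at h6
      exact absurd h6 (by norm_num)
    · simp only [eval_add, eval_mul, eval_pow, eval_C, eval_X, map_add, map_sub, map_mul,
        map_pow, map_ofNat, eval_ofNat, eval_sub]
      linear_combination e3
  · rw [hp] at ha hb
    have e1 : p0 = 0 := by
      have h5 : (r1 ^ 3 * 4) * p0 = 0 := by linear_combination -ha
      exact (mul_eq_zero.1 h5).resolve_left (mul_ne_zero (pow_ne_zero 3 hr) four)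
    have e2 : nn P p0 r0 = 0 := by
      have h5 : (r1 ^ 2 * 4) * nn P p0 r0 = 0 := by linear_combination -hb
      exact (mul_eq_zero.1 h5).resolve_left (mul_ne_zero (pow_ne_zero 2 hr) four)
    unfold nn at e2
    rw [e1, zero_mul, zero_sub, neg_eq_zero] at e2
    exact mul_ne_zero (nz h0) (nz h2) e2

/-- **No tangent line of `T_0` through the first node which meets a line of a generic plane
`y = const` is constant.** -/
theorem line_root (hM : P.M1 = 0) (h0 : P.P0 ≠ 0) (h2 : P.P2 ≠ 0)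
    (hQ1 : P.Q1 ≠ 0) (hQ : P.Q0 ≠ P.Q1) {p0 p1 r0 r1 y : E}
    (hy : y ∉ cl0 (∅ : Set E)) (hne : p1 ≠ 0 ∨ r1 ≠ 0) {q : E[X]}
    (h : tB P (C 0 : E[X]) (C p0 + C p1 * X) (C r0 + C r1 * X) (C y) = q ^ 2) {z p W : E}
    (hp : p = p0 + p1 * z) (hW : W = p0 + r0 + y + (p1 + r1) * z)
    (hC : p * (W ^ 2 + algebraMap ℂ E P.Q0 * p - algebraMap ℂ E P.m) +
      algebraMap ℂ E P.Q1 * algebraMap ℂ E P.P0 * algebraMap ℂ E P.P2 = 0) :
    p ∉ cl0 (∅ : Set E) := by
  haveI : CharZero E := charZero_of_injective_algebraMap (algebraMap ℂ E).injective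
  have four : (4 : E) ≠ 0 := by norm_num
  have nz : ∀ {z : ℂ}, z ≠ 0 → algebraMap ℂ E z ≠ 0 := fun {z} hz => by
    rwa [Ne, map_eq_zero_iff _ (algebraMap ℂ E).injective]
  obtain ⟨hA, hB, hp1⟩ := line_dir hM h0 h2 hQ1 hQ hy hne h
  rw [tB_line hM] at h
  intro hpG
  set G := cl0 (∅ : Set E) with hG
  have hGc : ∀ u : E, IsAlgebraic G u → u ∈ G := cl0_closed _
  have mG : ∀ z : ℂ, algebraMap ℂ E z ∈ G := fun z => G.algebraMap_mem z
  have hQ' : algebraMap ℂ E P.Q0 - algebraMap ℂ E P.Q1 ≠ 0 := by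
    rw [← map_sub]
    exact nz (sub_ne_zero.2 hQ)
  have n0 := nz h0
  have n2 := nz h2
  have n3 := nz hQ1
  set Q0 := algebraMap ℂ E P.Q0 with hQ0d
  set Q1 := algebraMap ℂ E P.Q1 with hQ1d
  set m := algebraMap ℂ E P.m with hmd
  set A := algebraMap ℂ E P.P0 with hAd
  set B := algebraMap ℂ E P.P2 with hBd
  have hpn : p ≠ 0 := by
    intro h3
    rw [h3, zero_mul, zero_add] at hC
    exact mul_ne_zero (mul_ne_zero n3 n0) n2 hC
  -- the slope
  obtain ⟨c, hc⟩ : ∃ c, r1 = c * p1 := ⟨r1 / p1, (div_mul_cancel₀ _ hp1).symm⟩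
  set k := 1 + c with hk
  have hkne : k ≠ 0 := by
    intro h3
    apply hA
    rw [hc]
    linear_combination p1 * h3
  set r := r0 + r1 * z with hr
  have hWr : W = p + r + y := by rw [hW, hp, hr]; ring
  have hWG : W ∈ G := by
    apply sq_mem' hGc
    have e : W ^ 2 = m - Q0 * p - Q1 * A * B / p := by
      field_simp
      linear_combination hC
    rw [e]
    exact sub_mem (sub_mem (mG _) (mul_mem (mG _) hpG))
      (div_mem (mul_mem (mul_mem (mG _) (mG _)) (mG _)) hpG)
  have hrG : r ∉ G := by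
    intro h3
    apply hy
    have e : y = W - p - r := by rw [hWr]; ring
    rw [e]
    exact sub_mem (sub_mem hWG hpG) h3
  set j := W ^ 2 + Q0 * p + Q1 * r - m with hj
  set n := p * r - A * B with hn
  have hjn : p * j = Q1 * n := by
    rw [hj, hn]
    linear_combination hC
  have hnn : n ≠ 0 := by
    intro h3
    apply hrG
    have e : r = A * B / p := by
      rw [eq_div_iff hpn]
      linear_combination h3
    rw [e]
    exact div_mem (mul_mem (mG _) (mG _)) hpG
  have hjval : jj P p0 r0 y = j - (2 * (p0 + r0 + y) * (p1 + r1) + Q0 * p1 + Q1 * r1) * z -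
      (p1 + r1) ^ 2 * z ^ 2 := by
    unfold jj
    rw [hj, hW, hp, hr]
    ring
  have hnval : nn P p0 r0 = n - (p0 * r1 + p1 * r0) * z - p1 * r1 * z ^ 2 := by
    unfold nn
    rw [hn, hp, hr]
    ring
  have hlin : 2 * (p0 + r0 + y) * (p1 + r1) + Q0 * p1 + Q1 * r1 =
      (2 * W * k + Q0 + Q1 * c) * p1 - 2 * (p1 + r1) ^ 2 * z := by
    rw [hW, hk, hc]
    ring
  have hlin2 : p0 * r1 + p1 * r0 = (p * c + r) * p1 - 2 * (p1 * r1) * z := by
    rw [hp, hr, hc]
    ring
  rcases square_cases (pow_ne_zero 2 hA) (pow_ne_zero 2 hB) h with ⟨ha, hb⟩ | ⟨ha, hb⟩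
  · -- both are squares
    rw [hjval, hlin] at ha
    rw [hjval, hnval, hlin, hlin2] at hb
    have a1 : (k * (2 * W + Q1) + (Q0 - Q1)) ^ 2 = 4 * k ^ 2 * j := by
      apply mul_right_cancel₀ (pow_ne_zero 2 hp1)
      rw [hc] at ha
      rw [hk]
      linear_combination ha
    have a2 : (k * (2 * W + Q1) + (Q0 - Q1) - 4 * (p * c + r)) ^ 2 =
        4 * (2 - k) ^ 2 * (j - 4 * n) := by
      apply mul_right_cancel₀ (pow_ne_zero 2 hp1)
      rw [hc] at hb
      rw [hk]
      linear_combination hb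
    have hj' : j = Q1 * r - Q1 * A * B / p := by
      field_simp
      linear_combination hjn
    set 𝒜 := (k * (2 * W + Q1) + (Q0 - Q1)) ^ 2 + 4 * k ^ 2 * (Q1 * A * B / p) with h𝒜
    have a3 : 4 * Q1 * k ^ 2 * r = 𝒜 := by
      rw [h𝒜, a1, hj']
      ring
    have hkG : k ∉ G := by
      intro h3
      apply hrG
      have e : r = 𝒜 / (algebraMap ℂ E 4 * Q1 * k ^ 2) := by
        rw [map_ofNat, eq_div_iff (mul_ne_zero (mul_ne_zero four n3) (pow_ne_zero 2 hkne))]
        linear_combination a3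
      rw [e]
      refine div_mem ?_ (mul_mem (mul_mem (mG _) (mG _)) (pow_mem h3 2))
      have h4G : (4 : E) ∈ G := by
        have := mG 4
        rwa [map_ofNat] at this
      have h2G : (2 : E) ∈ G := by
        have := mG 2
        rwa [map_ofNat] at this
      exact add_mem (pow_mem (add_mem (mul_mem h3 (add_mem (mul_mem h2G hWG) (mG _)))
        (sub_mem (mG _) (mG _))) 2) (mul_mem (mul_mem h4G (pow_mem h3 2))
        (div_mem (mul_mem (mul_mem (mG _) (mG _)) (mG _)) hpG))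
    have a4 : (Q1 * k ^ 2 * (k * (2 * W + Q1) + (Q0 - Q1)) - 4 * Q1 * k ^ 2 * (p * (k - 1)) -
        𝒜) ^ 2 = 4 * (2 - k) ^ 2 * (Q1 / p - 4) * (Q1 * k ^ 2) *
          (p * 𝒜 / 4 - Q1 * k ^ 2 * (A * B)) := by
      have e1 : j - 4 * n = (Q1 / p - 4) * n := by
        have : j = Q1 * n / p := by rw [eq_div_iff hpn]; linear_combination hjn
        rw [this]
        ring
      have e2 : p * 𝒜 / 4 - Q1 * k ^ 2 * (A * B) = Q1 * k ^ 2 * n := by
        rw [← a3, hn]
        ring
      have e3 : Q1 * k ^ 2 * (k * (2 * W + Q1) + (Q0 - Q1)) - 4 * Q1 * k ^ 2 * (p * (k - 1)) -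
        𝒜 = Q1 * k ^ 2 * (k * (2 * W + Q1) + (Q0 - Q1) - 4 * (p * c + r)) := by
        rw [← a3, hk]
        ring
      rw [e1] at a2
      rw [e2, e3, mul_pow, a2]
      ring
    -- the polynomial
    apply hkG
    let cG : (x : E) → x ∈ G → G[X] := fun x hx => C (⟨x, hx⟩ : G)
    have mQ0 : Q0 ∈ G := mG _
    have mQ1 : Q1 ∈ G := mG _
    have mA : A ∈ G := mG _
    have mB : B ∈ G := mG _
    let w' : G := ⟨W, hWG⟩
    let p' : G := ⟨p, hpG⟩
    let q0 : G := ⟨Q0, mQ0⟩
    let q1 : G := ⟨Q1, mQ1⟩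
    let a' : G := ⟨A, mA⟩
    let b' : G := ⟨B, mB⟩
    let AA : G[X] := (X * C (2 * w' + q1) + C (q0 - q1)) ^ 2 + 4 * X ^ 2 * C (q1 * a' * b' / p')
    let FF : G[X] := (C q1 * X ^ 2 * (X * C (2 * w' + q1) + C (q0 - q1)) -
      4 * C q1 * X ^ 2 * (C p' * (X - 1)) - AA) ^ 2 - 4 * (2 - X) ^ 2 * C (q1 / p' - 4) *
        (C q1 * X ^ 2) * (C (p' / 4) * AA - C q1 * X ^ 2 * C (a' * b'))
    have hsub : ∀ x : G, algebraMap G E x = (x : E) := fun x => rfl
    have hAA : aeval k AA = 𝒜 := by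
      simp only [AA, map_add, map_sub, map_mul, map_pow, aeval_X, aeval_C, hsub, map_ofNat]
      rw [h𝒜]
      push_cast
      rfl
    refine mem_of_poly hGc (F := FF) (c := 0) ?_ ?_
    · simp only [FF, map_add, map_sub, map_mul, map_pow, aeval_X, aeval_C, hsub, map_ofNat,
        map_one, hAA]
      push_cast
      change (Q1 * k ^ 2 * (k * (2 * W + Q1) + (Q0 - Q1)) - 4 * Q1 * k ^ 2 * (p * (k - 1)) -
        𝒜) ^ 2 - 4 * (2 - k) ^ 2 * (Q1 / p - 4) * (Q1 * k ^ 2) *
          (p / 4 * 𝒜 - Q1 * k ^ 2 * (A * B)) = 0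
      rw [a4]
      ring
    · have e5 : FF.eval 0 = (q0 - q1) ^ 4 := by
        simp only [FF, AA, eval_add, eval_sub, eval_mul, eval_pow, eval_X, eval_C, eval_ofNat,
          eval_one]
        ring
      rw [e5]
      refine pow_ne_zero 4 ?_
      intro h6
      apply hQ'
      have := congrArg (fun x : G => (x : E)) h6
      exact this
  · -- proportional
    have b1 : n * k ^ 2 = c * j := by
      apply mul_right_cancel₀ (pow_ne_zero 2 hp1)
      have h3 : nn P p0 r0 * (p1 + r1) ^ 2 = p1 * r1 * jj P p0 r0 y := by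
        linear_combination -hb / 4
      have h4 : (p0 * r1 + p1 * r0) * (p1 + r1) ^ 2 = p1 * r1 * (2 * (p0 + r0 + y) * (p1 + r1) +
          Q0 * p1 + Q1 * r1) := by
        linear_combination -ha / 4
      have h5 : n * (p1 + r1) ^ 2 = p1 * r1 * j := by
        linear_combination h3 + z * h4 - (p1 + r1) ^ 2 * hnval + p1 * r1 * hjval
      rw [hc] at h5
      rw [hk]
      linear_combination h5
    have b2 : (p * c + r) * k ^ 2 = c * (2 * W * k + Q0 + Q1 * c) := by
      apply mul_right_cancel₀ (pow_ne_zero 3 hp1)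
      have h4 : (p0 * r1 + p1 * r0) * (p1 + r1) ^ 2 = p1 * r1 * (2 * (p0 + r0 + y) * (p1 + r1) +
          Q0 * p1 + Q1 * r1) := by
        linear_combination -ha / 4
      rw [hlin, hlin2] at h4
      rw [hc] at h4
      rw [hk]
      linear_combination h4
    have b3 : p * k ^ 2 = Q1 * c := by
      apply mul_left_cancel₀ hnn
      linear_combination p * b1 + c * hjn
    have hcG : c ∈ G := by
      apply hGc
      refine isAlgebraic_of_coeff (p := C p * X ^ 2 + C (2 * p - Q1) * X + C p) ?_ ?_ ?_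
      · intro i
        have h2G : (2 : E) ∈ G := by
          have := mG 2
          rwa [map_ofNat] at this
        have c1 : 2 * p - Q1 ∈ G := sub_mem (mul_mem h2G hpG) (mG _)
        simp only [coeff_add, coeff_C_mul, coeff_X_pow, coeff_X, coeff_C]
        refine add_mem (add_mem (mul_mem hpG ?_) (mul_mem c1 ?_)) ?_
        · split_ifs
          · exact one_mem _
          · exact zero_mem _
        · split_ifs
          · exact one_mem _
          · exact zero_mem _
        · split_ifs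
          · exact hpG
          · exact zero_mem _
      · intro h5
        have h6 := quad_natDegree (f1 := 2 * p - Q1) (f0 := p) hpn
        rw [h5, natDegree_zero] at h6
        exact absurd h6 (by norm_num)
      · simp only [eval_add, eval_mul, eval_pow, eval_C, eval_X]
        rw [hk] at b3
        linear_combination b3
    have hkG : k ∈ G := by rw [hk]; exact add_mem (one_mem _) hcG
    apply hrG
    have h2G : (2 : E) ∈ G := by
      have := mG 2
      rwa [map_ofNat] at this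
    have e : r = c * (2 * W * k + Q0 + Q1 * c) / k ^ 2 - p * c := by
      rw [← b2]
      field_simp
      ring
    rw [e]
    exact sub_mem (div_mem (mul_mem hcG (add_mem (add_mem (mul_mem (mul_mem h2G hWG) hkG) (mG _))
      (mul_mem (mG _) hcG))) (pow_mem hkG 2)) (mul_mem hpG hcG)

end

end Vale.Agent.P297.H80.Z2
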